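import Crest.Agent.N233.Rr.Hy

/-!
# Row 233 (helper16): the hypotheses on the action of `F` on the flag complex
-/

set_option autoImplicit false

namespace Crest.Agent.N233.Rr

/-- a free cocompact action with embedded stars and at least fourteen orbits -/
structure Fr {S F : Type} [DecidableEq S] [Group F] {Γ : SimpleGraph S} (ρ : F →* (Γ ≃g Γ)) :
    Prop where
  hy : Hy Γ
  b3 : ∀ (a : S) (σ : Set S), Γ.IsClique σ → ∃ c, c ≠ a ∧ ¬Γ.Adj a c ∧ c ∉ σ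
  inv : ∀ f : F, f * f = 1 → f = 1
  free : ∀ (f : F) s, ρ f s = s → f = 1
  adj : ∀ (f : F) a, ¬Γ.Adj a (ρ f a)
  loc : ∀ (f : F) a b, Γ.Adj a b → Γ.Adj a (ρ f b) → f = 1
  fin : ∃ B : Set S, B.Finite ∧ ∀ s, ∃ f : F, ρ f s ∈ B
  big : ∃ a : Fin 14 → S, (∀ i j (f : F), ρ f (a i) = a j → i = j) ∧
    ∀ i j : Fin 14, i < 4 → j < 4 → i ≠ j → Γ.Adj (a i) (a j)

end Crest.Agent.N233.Rr
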