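import Crest.Agent.N233.Dv.Wall

/-!
# Row 233 (helper43): the hypotheses of the rigidity theorem for right angled Coxeter groups
-/

set_option autoImplicit false
open Set Relation

namespace Crest.Agent.N233.Rr

variable {S : Type} (Γ : SimpleGraph S)

/-- outside the closed star of `a` -/
def Out (a c : S) : Prop := c ≠ a ∧ ¬Γ.Adj a c

/-- a flag three dimensional pseudomanifold, complements of stars connected -/
structure Hy [DecidableEq S] : Prop where
  le4 : ∀ τ : Finset S, Γ.IsClique (τ : Set S) → τ.card ≤ 4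
  ext : ∀ τ : Finset S, Γ.IsClique (τ : Set S) → ∃ σ, Γ.IsNClique 4 σ ∧ τ ⊆ σ
  two : ∀ ρ, Γ.IsNClique 3 ρ → ∃ a a', a ≠ a' ∧ ∀ s, Γ.IsNClique 4 (insert s ρ) ↔ s = a ∨ s = a'
  dual : ∀ σ σ', Γ.IsNClique 4 σ → Γ.IsNClique 4 σ' →
    ReflTransGen (fun x y => Γ.IsNClique 4 x ∧ Γ.IsNClique 4 y ∧ (x ∩ y).card = 3) σ σ'
  conn : ∀ a c c', Out Γ a c → Out Γ a c' →
    ReflTransGen (fun x y => Γ.Adj x y ∧ Out Γ a x ∧ Out Γ a y) c c'

end Crest.Agent.N233.Rr
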