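import Mathlib

/-!
# Row 233 (helper43): finiteness of `Out G` from a characteristic subgroup
-/

set_option autoImplicit false

namespace Crest.Agent.N233.Rr

variable {G : Type} [Group G]

/-- restriction of automorphisms to a characteristic subgroup -/
def resC (K : Subgroup G) [h : K.Characteristic] : MulAut G →* MulAut K :=
  MonoidHom.mk' (fun β => (β.subgroupMap K).trans
    (MulEquiv.subgroupCongr (Subgroup.characteristic_iff_map_eq.1 h β))) fun _ _ => rfl

theorem resC_coe (K : Subgroup G) [K.Characteristic] (β : MulAut G) (k : K) :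
    (resC K β k : G) = β k := rfl

theorem fin_of_char (K : Subgroup G) [K.Characteristic]
    (cen : ∀ u : G, (∀ k ∈ K, u * k = k * u) → u = 1)
    (h : (MulAut.conj (G := K)).range.FiniteIndex) : (MulAut.conj (G := G)).range.FiniteIndex := by
  have : ((MulAut.conj (G := K)).range.comap (resC K)).FiniteIndex := ⟨by
    rw [Subgroup.index_comap]
    exact Subgroup.FiniteIndex.index_ne_zero⟩
  refine Subgroup.finiteIndex_of_le (H := (MulAut.conj (G := K)).range.comap (resC K)) ?_
  rintro β ⟨k, hk⟩
  have e : ∀ x ∈ K, β x = k * x * (k : G)⁻¹ := fun x hx =>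
    (congrArg (fun γ : MulAut K => (γ ⟨x, hx⟩ : G)) hk).symm
  refine ⟨k, MulEquiv.ext fun g => ?_⟩
  have := cen (g⁻¹ * (k : G)⁻¹ * β g * k) fun x hx => by
    have h1 := e _ (Subgroup.Normal.conj_mem inferInstance x hx g)
    rw [map_mul, map_mul, map_inv, e x hx] at h1
    calc _ = g⁻¹ * (k : G)⁻¹ * (β g * (k * x * (k : G)⁻¹) * (β g)⁻¹) * β g * k := by group
      _ = _ := by rw [h1]; group
  rw [MulAut.conj_apply]
  calc _ = (k : G) * g * (g⁻¹ * (k : G)⁻¹ * β g * k) * (k : G)⁻¹ := by rw [this]; group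
    _ = _ := by group

theorem fin_congr {G' : Type} [Group G'] (e : G ≃* G')
    (h : (MulAut.conj (G := G')).range.FiniteIndex) : (MulAut.conj (G := G)).range.FiniteIndex := by
  have : ((MulAut.conj (G := G')).range.comap (MulAut.congr e).toMonoidHom).FiniteIndex := ⟨by
    rw [Subgroup.index_comap]
    exact Subgroup.FiniteIndex.index_ne_zero⟩
  refine Subgroup.finiteIndex_of_le
    (H := (MulAut.conj (G := G')).range.comap (MulAut.congr e).toMonoidHom) ?_
  rintro β ⟨k, hk⟩
  refine ⟨e.symm k, MulEquiv.ext fun g => e.injective ?_⟩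
  simpa using congrArg (fun γ : MulAut G' => γ (e g)) hk

variable (G) in
/-- the intersection of the kernels of the characters of order two -/
def sq2 : Subgroup G := ⨅ χ : G →* Multiplicative (ZMod 2), χ.ker

theorem mem_sq2 {g : G} : g ∈ sq2 G ↔ ∀ χ : G →* Multiplicative (ZMod 2), χ g = 1 := by
  simp [sq2, Subgroup.mem_iInf]

instance : (sq2 G).Characteristic :=
  Subgroup.characteristic_iff_le_comap.2 fun β _ hg => mem_sq2.2 fun χ =>
    mem_sq2.1 hg (χ.comp β.toMonoidHom)

instance [h : Group.FG G] : (sq2 G).FiniteIndex := by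
  obtain ⟨B, h1, h2⟩ := Group.fg_iff.1 h
  have : Finite B := h2
  have : Finite (G →* Multiplicative (ZMod 2)) :=
    Finite.of_injective (fun χ (b : B) => χ b) fun χ χ' e =>
      MonoidHom.eq_of_eqOn_dense h1 fun b hb => congrFun e ⟨b, hb⟩
  exact Subgroup.finiteIndex_iInf fun _ => Subgroup.finiteIndex_ker _

theorem sq2_le {K : Type} (φ : G →* Multiplicative (K → ZMod 2)) : sq2 G ≤ φ.ker := fun _ hg =>
  Multiplicative.toAdd.injective (funext fun k => congrArg Multiplicative.toAdd (mem_sq2.1 hg
    ((AddMonoidHom.toMultiplicative (Pi.evalAddMonoidHom (fun _ => ZMod 2) k)).comp φ)))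

/-- the characteristic subgroup, inside the ambient group -/
def sq2' (H : Subgroup G) : Subgroup G := (sq2 H).map H.subtype

theorem sq2'_le (H : Subgroup G) : sq2' H ≤ H := Subgroup.map_subtype_le _

theorem sq2'_le_ker (H : Subgroup G) {K : Type} (φ : G →* Multiplicative (K → ZMod 2)) :
    sq2' H ≤ φ.ker := by
  rintro _ ⟨g, hg, rfl⟩
  exact sq2_le (φ.comp H.subtype) hg

instance (H : Subgroup G) [H.FiniteIndex] [Group.FG G] : (sq2' H).FiniteIndex := ⟨by
  rw [sq2', Subgroup.index_map_subtype]
  exact mul_ne_zero Subgroup.FiniteIndex.index_ne_zero Subgroup.FiniteIndex.index_ne_zero⟩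

/-- the transfer -/
theorem fin_sub (H : Subgroup G) (cen : ∀ u ∈ H, (∀ k ∈ sq2' H, u * k = k * u) → u = 1)
    (h : (MulAut.conj (G := sq2' H)).range.FiniteIndex) :
    (MulAut.conj (G := H)).range.FiniteIndex :=
  fin_of_char (sq2 H) (fun u hu => Subtype.ext (cen u u.2 (by
    rintro _ ⟨k, hk, rfl⟩
    exact congrArg Subtype.val (hu k hk))))
    (fin_congr ((sq2 H).equivMapOfInjective H.subtype H.subtype_injective) h)

end Crest.Agent.N233.Rr
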