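import Crest.Agent.N233.Rr.Hy
import Crest.Agent.N233.Dv.Pt

/-!
# Row 233 (helper43): an automorphism that preserves reflections is geometric
-/

set_option autoImplicit false
open Set Relation

noncomputable section

namespace Crest.Agent.N233.Rr.G

open Crest.Agent.N255.Ra Dv

variable {S : Type} {Γ : SimpleGraph S} {u v w g r t : W Γ} {s : S}

/-- the vertex `v` is adjacent to the wall of `r` -/
def Aj (v r : W Γ) : Prop := ∃ s, r = v * gen Γ s * v⁻¹

/-- reflections -/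
def Rl (r : W Γ) : Prop := ∃ v, Aj v r

theorem Aj.conj (h : Aj v r) (u : W Γ) : Aj (u * v) (u * r * u⁻¹) :=
  h.imp fun s e => by rw [e]; group

theorem Rl.conj (h : Rl r) (u : W Γ) : Rl (u * r * u⁻¹) := h.elim fun _ h => ⟨_, h.conj u⟩

theorem Rl.mul_self (h : Rl r) : r * r = 1 := by
  obtain ⟨v, s, rfl⟩ := h; simp [mul_assoc]

theorem Rl.inv (h : Rl r) : r⁻¹ = r := inv_eq_of_mul_eq_one_right h.mul_self

theorem Rl.mem_N (h : Rl t) (c : Commute r t) : r ∈ N t ↔ r = t := by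
  obtain ⟨v, s, rfl⟩ := h
  rw [mem_N_mul, mem_N_mul_gen, mem_N_inv]
  have : v * ((v * gen Γ s)⁻¹ * r * (v * gen Γ s)) * v⁻¹ = r := by
    calc _ = (v * gen Γ s * v⁻¹) * (r * (v * gen Γ s * v⁻¹)) := by simp [mul_assoc]
      _ = r := by rw [c.eq]; simp [mul_assoc]
  rw [this]; tauto

theorem mem_N_conj : u * r * u⁻¹ ∈ N (u * g) ↔ ¬(u * r * u⁻¹ ∈ N u ↔ r ∈ N g) := by
  rw [mem_N_mul]; simp [mul_assoc]

theorem comm_of_mem_N (c : Commute w (gen Γ s)) (h : t ∈ N w) : Commute t (gen Γ s) := by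
  induction hn : len w generalizing w t with
  | zero => rw [len_eq_zero.1 hn] at h; simp at h
  | succ n ih =>
    obtain ⟨a, ha⟩ := In_nonempty (w := w⁻¹) fun e => by
      rw [inv_eq_one.1 e, len_one] at hn; omega
    rw [← Init_eq] at ha
    have c1 : Commute (gen Γ a) (gen Γ s) := gen_comm' fun n => by
      by_cases hs : s ∈ Init w
      · exact Init_clique w ha hs n
      · refine Init_clique (gen Γ s * w) (gen_mem_N.1 ?_) ?_ n
        · rw [← c.eq, mem_N_mul_gen, gen_mem_N, c.eq, mul_inv_cancel_right, gen_injective.eq_iff]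
          tauto
        · have := len_nmem' hs
          change len _ < len _
          rw [gen_gen_mul]; omega
    by_cases e : t = gen Γ a
    · exact e ▸ c1
    have h1 : gen Γ a * t * gen Γ a ∈ N (gen Γ a * w) := by
      rw [mem_N_mul, mem_N_gen, conj_eq (Commute.refl _)]
      simpa [mul_assoc, e] using h
    have h2 := ih (c1.mul_left c) h1 (by have := len_mem' ha; omega)
    simpa [mul_assoc] using (c1.mul_left h2).mul_left c1

/-- a wall lies on one side of every wall that it does not cross -/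
theorem Aj.side (h : Aj v r) (h' : Aj w r) (c : ¬Commute t r) : t ∈ N v ↔ t ∈ N w := by
  obtain ⟨s, e⟩ := h
  obtain ⟨s', e'⟩ := h'
  obtain rfl : s = s' := eq_of_conj (u := v⁻¹ * w) (by
    rw [conj_iff, ← conj_iff.2 e, e']; group)
  by_contra n
  have h1 : v⁻¹ * t * v ∈ N (v⁻¹ * w) := by
    have := @mem_N_mul S Γ v (v⁻¹ * w) t
    rw [mul_inv_cancel_left] at this
    tauto
  have c1 : Commute (v⁻¹ * w) (gen Γ s) := by
    have : w * gen Γ s * w⁻¹ = v * gen Γ s * v⁻¹ := e'.symm.trans e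
    calc v⁻¹ * w * gen Γ s = v⁻¹ * (w * gen Γ s * w⁻¹) * w := by group
      _ = _ := by rw [this]; group
  have := (comm_of_mem_N c1 h1).map (MulAut.conj v)
  simp only [MulAut.conj_apply, ← e] at this
  exact c (by simpa [mul_assoc] using this)

theorem exists_aj (h : r ∈ N g) : ∃ v, Aj v r ∧ N v ⊆ N g := by
  induction g using ind_red with
  | one => simp at h
  | mul w s hs ih =>
    have a : N w ⊆ N (w * gen Γ s) := fun t ht => by
      rw [mem_N_mul_gen]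
      intro e
      exact hs (last_mem_N.1 (e.1 ht ▸ ht))
    by_cases e : r = w * gen Γ s * w⁻¹
    · exact ⟨w, ⟨s, e⟩, a⟩
    · rw [mem_N_mul_gen] at h
      obtain ⟨v, h1, h2⟩ := ih (by tauto)
      exact ⟨v, h1, h2.trans a⟩

theorem Rl.step (h : Rl t) : ∃ x, gen Γ x ∈ N t ∧ (t = gen Γ x ∨
    len (gen Γ x * t * gen Γ x) < len t ∧ gen Γ x ∉ N (gen Γ x * t * gen Γ x)) := by
  obtain ⟨x, hx⟩ := In_nonempty (w := t⁻¹) fun e => by
    have := (h.mem_N (Commute.refl t)).2 rfl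
    rw [inv_eq_one.1 e] at this; simp at this
  rw [← Init_eq] at hx
  refine ⟨x, gen_mem_N.2 hx, or_iff_not_imp_left.2 fun e => ?_⟩
  have h1 := len_mem' hx
  have h2 : x ∈ In (gen Γ x * t) := by
    rw [← last_mem_N, mem_N_mul, mem_N_gen]
    have a : t * gen Γ x * t⁻¹ ∈ N t := by rw [← mem_N_inv, h.inv]; exact gen_mem_N.2 hx
    have b : gen Γ x * t * gen Γ x * (gen Γ x * t)⁻¹ ≠ gen Γ x := fun b =>
      e ((h.mem_N (r := gen Γ x) (by
        rw [mul_inv_eq_iff_eq_mul, gen_gen_mul] at b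
        calc gen Γ x * t = gen Γ x * t * gen Γ x * gen Γ x := by simp
          _ = _ := by rw [b])).1 (gen_mem_N.2 hx)).symm
    simp only [b, false_iff, not_not]
    simpa [mul_assoc] using a
  have h3 := len_mem h2
  refine ⟨by omega, fun a => ?_⟩
  have h4 := len_mem' (gen_mem_N.1 a)
  have h5 : x ∈ In t := by rw [In_eq, h.inv]; exact hx
  have h6 := len_mem h5
  rw [mul_assoc, gen_gen_mul, ← mul_assoc] at h4
  omega

theorem Rl.exists_aj (h : Rl t) {B : Set S} (c : ∀ b ∈ B, Commute t (gen Γ b)) :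
    ∃ u, Aj u t ∧ ∀ b ∈ B, Commute u (gen Γ b) := by
  induction hn : len t using Nat.strong_induction_on generalizing t with
  | _ n ih =>
  obtain ⟨x, h1, rfl | ⟨h2, -⟩⟩ := h.step
  · exact ⟨1, ⟨x, by simp⟩, fun _ _ => Commute.one_left _⟩
  · have cx := fun b hb => comm_of_mem_N (c b hb) h1
    obtain ⟨u, h3, h4⟩ := ih _ (hn ▸ h2) (by simpa using h.conj (gen Γ x))
      (fun b hb => ((cx b hb).mul_left (c b hb)).mul_left (cx b hb)) rfl
    exact ⟨gen Γ x * u, by simpa [mul_assoc] using h3.conj (gen Γ x),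
      fun b hb => (cx b hb).mul_left (h4 b hb)⟩

/-- commuting reflections have a common vertex -/
theorem exists_common {ι : Type} (r : ι → W Γ) (hr : ∀ a, Rl (r a)) (σ : Finset ι)
    (c : ∀ a ∈ σ, ∀ b ∈ σ, Commute (r a) (r b)) : ∃ v, ∀ a ∈ σ, Aj v (r a) := by
  classical
  induction σ using Finset.induction_on with
  | empty => exact ⟨1, by simp⟩
  | insert a σ _ ih =>
    obtain ⟨v, hv⟩ := ih fun a ha b hb => c a (by simp [ha]) b (by simp [hb])
    obtain ⟨u, h1, h2⟩ := ((hr a).conj v⁻¹).exists_aj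
      (B := {s | ∃ b ∈ σ, r b = v * gen Γ s * v⁻¹}) (by
        rintro s ⟨b, hb, e⟩
        have := (c a (by simp) b (by simp [hb])).map (MulAut.conj v⁻¹)
        simpa [e, mul_assoc] using this)
    refine ⟨v * u, fun b hb => ?_⟩
    rcases Finset.mem_insert.1 hb with rfl | hb
    · simpa [mul_assoc] using h1.conj v
    · obtain ⟨s, e⟩ := hv b hb
      exact ⟨s, by rw [mul_assoc v, (h2 s ⟨b, hb, e⟩).eq, e]; group⟩

/-- with prescribed sides -/
theorem exists_common' {ι : Type} (r : ι → W Γ) (hr : ∀ a, Rl (r a)) (hi : Function.Injective r)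
    (ε : ι → Prop) (σ : Finset ι) (c : ∀ a ∈ σ, ∀ b ∈ σ, Commute (r a) (r b)) :
    ∃ v, ∀ a ∈ σ, Aj v (r a) ∧ (r a ∈ N v ↔ ε a) := by
  classical
  suffices h : ∀ τ ⊆ σ, ∃ v, (∀ a ∈ σ, Aj v (r a)) ∧ ∀ a ∈ τ, (r a ∈ N v ↔ ε a) from
    (h σ subset_rfl).imp fun v h a ha => ⟨h.1 a ha, h.2 a ha⟩
  intro τ
  induction τ using Finset.induction_on with
  | empty => exact fun _ => (exists_common r hr σ c).imp fun v h => ⟨h, by simp⟩
  | insert a τ ha ih =>
    intro h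
    obtain ⟨v, h1, h2⟩ := ih ((Finset.subset_insert _ _).trans h)
    have ha' : a ∈ σ := h (by simp)
    by_cases e : r a ∈ N v ↔ ε a
    · exact ⟨v, h1, fun b hb => (Finset.mem_insert.1 hb).elim (fun h => h ▸ e) (h2 b)⟩
    have k : ∀ b ∈ σ, r a * r b * (r a)⁻¹ = r b := fun b hb => by
      rw [(c a ha' b hb).eq, mul_inv_cancel_right]
    have m : ∀ b ∈ σ, (r b ∈ N (r a * v) ↔ ¬(b = a ↔ r b ∈ N v)) := fun b hb => by
      have := @mem_N_conj S Γ (r a) v (r b)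
      rwa [k b hb, (hr a).mem_N (c b hb a ha'), hi.eq_iff] at this
    refine ⟨r a * v, fun b hb => k b hb ▸ (h1 b hb).conj (r a), fun b hb => ?_⟩
    rw [m b (h hb)]
    rcases Finset.mem_insert.1 hb with rfl | hb
    · tauto
    · have := h2 b hb
      have : b ≠ a := fun e => ha (e ▸ hb)
      tauto

theorem p1 {A B C : Prop} (h : A ↔ ¬(B ↔ C)) : C ↔ ¬(A ↔ B) := by
  by_cases B <;> by_cases C <;> simp_all

theorem p3 {A B C D E : Prop} (h1 : A ↔ B) (h2 : ¬(C ↔ A)) (h3 : D ↔ ¬A) (h4 : E → ¬(C ↔ D))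
    (h5 : ¬(D ↔ E) ↔ B) : False := by
  by_cases A <;> by_cases C <;> by_cases E <;> simp_all

/-- two walls facing each other have disjoint far sides -/
theorem far_disj {x y : W Γ} (hv : Aj v x) (hw : Aj w y) (c : ¬Commute x y)
    (h1 : x ∈ N v ↔ x ∈ N w) (h2 : ¬(x ∈ N g ↔ x ∈ N v)) : y ∈ N g ↔ y ∈ N (x * v) := by
  by_contra h3
  have hx : Rl x := ⟨v, hv⟩
  have a : ∀ r, ((x * v)⁻¹ * r * (x * v) ∈ N ((x * v)⁻¹ * g) ↔ ¬(r ∈ N g ↔ r ∈ N (x * v))) := fun r => by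
    have := @mem_N_mul S Γ (x * v) ((x * v)⁻¹ * g) r
    rw [mul_inv_cancel_left] at this
    exact p1 this
  obtain ⟨k, k1, k2⟩ := exists_aj ((a y).2 h3)
  have k3 : Aj (x * v * k) y := by simpa [mul_assoc] using k1.conj (x * v)
  have k4 := k3.side hw c
  have b : x ∈ N (x * v) ↔ x ∉ N v := by
    have := @mem_N_conj S Γ x v x
    rw [mul_inv_cancel_right, hx.mem_N (Commute.refl x)] at this
    simpa using this
  rw [mem_N_mul] at k4
  exact p3 h1 h2 b (fun e => (a x).1 (k2 e)) k4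

theorem Aj.mem_N_mul (hv : Aj v t) (h : r ≠ t) : r ∈ N (t * v) ↔ r ∈ N v := by
  obtain ⟨s, rfl⟩ := hv
  rw [inv_mul_cancel_right, mem_N_mul_gen]; tauto

/-- all points on the side of `v` of the wall `x` lie on one side of the wall `r` -/
def Bh (v x r : W Γ) : Prop :=
  ∀ g g', (x ∈ N g ↔ x ∈ N v) → (x ∈ N g' ↔ x ∈ N v) → (r ∈ N g ↔ r ∈ N g')

theorem Bh.flip {x y : W Γ} (hx : Rl x) (d : ∀ g, ¬(x ∈ N g ↔ x ∈ N v) → (y ∈ N g ↔ y ∈ N v))
    (h : Bh v y r) : Bh v x (x * r * x⁻¹) := fun g g' h1 h2 => by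
  have b : ∀ g, x ∈ N (x * g) ↔ x ∉ N g := fun g => by
    have := @mem_N_conj S Γ x g x
    rw [mul_inv_cancel_right, hx.mem_N (Commute.refl x)] at this
    tauto
  have := h (x * g) (x * g') (d _ (by rw [b]; tauto)) (d _ (by rw [b]; tauto))
  have e : ∀ g, g = x * (x * g) := fun g => by rw [← mul_assoc, hx.mul_self, one_mul]
  rw [e g, e g', mem_N_conj, mem_N_conj]
  tauto

variable [DecidableEq S] (H : Hy Γ) (β : W Γ ≃* W Γ)

theorem apex {ρ : Finset S} (hρ : Γ.IsNClique 3 ρ) {x : S} (ht : Rl t) (hx : gen Γ x ∈ N t)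
    (c : ∀ b ∈ ρ, Commute t (gen Γ b) ∧ t ≠ gen Γ b) : Γ.IsNClique 4 (insert x ρ) :=
  hρ.insert fun b hb => adj_of_comm (by
    rintro rfl
    exact (c x hb).2 ((ht.mem_N (c x hb).1.symm).1 hx).symm) (comm_of_mem_N (c b hb).1 hx)

theorem pingpong {ρ : Finset S} (hρ : Γ.IsNClique 3 ρ) {a a' : S}
    (h2 : ∀ s, Γ.IsNClique 4 (insert s ρ) → s = a ∨ s = a') (ra : Rl (β (gen Γ a)))
    (ra' : Rl (β (gen Γ a')))
    (d : ∀ g, ¬(β (gen Γ a) ∈ N g ↔ β (gen Γ a) ∈ N v) → (β (gen Γ a') ∈ N g ↔ β (gen Γ a') ∈ N v))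
    (ht : Rl t) (c : ∀ b ∈ ρ, Commute t (gen Γ b) ∧ t ≠ gen Γ b) :
    (gen Γ a ∈ N t ∧ Bh v (β (gen Γ a)) (β t)) ∨ (gen Γ a' ∈ N t ∧ Bh v (β (gen Γ a')) (β t)) := by
  induction hn : len t using Nat.strong_induction_on generalizing t with
  | _ n ih =>
  obtain ⟨x, h1, h3⟩ := ht.step
  have hx := h2 x (apex hρ ht h1 c)
  rcases h3 with rfl | ⟨h3, h4⟩
  · rcases hx with rfl | rfl
    · exact Or.inl ⟨h1, fun g g' a b => a.trans b.symm⟩
    · exact Or.inr ⟨h1, fun g g' a b => a.trans b.symm⟩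
  have cx := fun b hb => comm_of_mem_N (c b hb).1 h1
  have k := ih _ (hn ▸ h3) (by simpa using ht.conj (gen Γ x)) (fun b hb =>
    ⟨((cx b hb).mul_left (c b hb).1).mul_left (cx b hb), fun e => (c b hb).2 ((conj_eq (cx b hb) t).1 e)⟩)
    rfl
  have e : β t = β (gen Γ x) * β (gen Γ x * t * gen Γ x) * (β (gen Γ x))⁻¹ := by
    rw [← map_inv, ← map_mul, ← map_mul]; simp [mul_assoc]
  rcases hx with rfl | rfl
  · exact Or.inl ⟨h1, e ▸ Bh.flip ra d (k.resolve_left fun k => h4 k.1).2⟩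
  · refine Or.inr ⟨h1, e ▸ Bh.flip ra' (fun g hg => ?_) (k.resolve_right fun k => h4 k.1).2⟩
    by_contra n
    exact hg (d g n)

/-- the side of the wall of `a` that carries the walls outside the star of `a` -/
def sd (a : S) : Prop := ∃ c v, Out Γ a c ∧ Aj v (β (gen Γ c)) ∧ β (gen Γ a) ∈ N v

omit [DecidableEq S] in
theorem ncomm {a c : S} (h : Out Γ a c) : ¬Commute (β (gen Γ a)) (β (gen Γ c)) := fun e =>
  h.2 (adj_of_comm h.1.symm (by simpa using e.map β.symm))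

variable {β} (hr : ∀ a, Rl (β (gen Γ a)))
include H hr

theorem sd_iff {a c : S} (h : Out Γ a c) (hv : Aj v (β (gen Γ c))) : β (gen Γ a) ∈ N v ↔ sd β a := by
  refine ⟨fun m => ⟨c, v, h, hv, m⟩, fun ⟨c', w, h', hw, m⟩ => ?_⟩
  suffices k : ∀ c, ReflTransGen (fun x y => Γ.Adj x y ∧ Out Γ a x ∧ Out Γ a y) c' c →
      ∀ v, Aj v (β (gen Γ c)) → β (gen Γ a) ∈ N v from k c (H.conn a c' c h' h) v hv
  intro c p
  induction p with
  | refl => exact fun v hv => (hv.side hw (ncomm β h')).2 m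
  | @tail x y _ e ih =>
    intro v hv
    obtain ⟨u, hu⟩ := exists_common (fun a => β (gen Γ a)) hr {x, y} (by
      have := (gen_comm e.1).map β
      simp only [Finset.mem_insert, Finset.mem_singleton]
      rintro _ (rfl | rfl) _ (rfl | rfl)
      exacts [Commute.refl _, this, this.symm, Commute.refl _])
    exact (hv.side (hu y (by simp)) (ncomm β e.2.2)).2 (ih u (hu x (by simp)))

theorem good_eq (hr' : ∀ a, Rl (β.symm (gen Γ a))) {σ σ' : Finset S} (hσ : Γ.IsNClique 4 σ)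
    (hσ' : Γ.IsNClique 4 σ') (h3 : (σ ∩ σ').card = 3)
    (hv : ∀ a ∈ σ, Aj v (β (gen Γ a)) ∧ (β (gen Γ a) ∈ N v ↔ sd β a))
    (hw : ∀ a ∈ σ', Aj w (β (gen Γ a)) ∧ (β (gen Γ a) ∈ N w ↔ sd β a)) : v = w := by
  have hρ : Γ.IsNClique 3 (σ ∩ σ') := ⟨hσ.1.subset (by simp), h3⟩
  obtain ⟨a, ha, ea⟩ := Finset.exists_eq_insert_iff.2
    ⟨Finset.inter_subset_left (s₂ := σ'), by rw [h3, hσ.2]⟩
  obtain ⟨a', ha', ea'⟩ := Finset.exists_eq_insert_iff.2
    ⟨Finset.inter_subset_right (s₁ := σ), by rw [h3, hσ'.2]⟩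
  have m : a ∈ σ := ea ▸ Finset.mem_insert_self _ _
  have m' : a' ∈ σ' := ea' ▸ Finset.mem_insert_self _ _
  have n : a ∉ σ' := fun h => ha (Finset.mem_inter.2 ⟨m, h⟩)
  have ne : a' ≠ a := fun e => n (e ▸ m')
  have o : Out Γ a a' := ⟨ne, fun e => by
    have : Γ.IsNClique 5 (insert a σ') := hσ'.insert fun b hb => by
      rw [← ea'] at hb
      rcases Finset.mem_insert.1 hb with rfl | hb
      · exact e
      · exact hσ.1 m (Finset.mem_inter.1 hb).1 fun e => ha (e ▸ hb)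
    have := this.2 ▸ H.le4 _ this.1
    omega⟩
  have o' : Out Γ a' a := ⟨ne.symm, fun e => o.2 e.symm⟩
  obtain ⟨b, b', -, hb⟩ := H.two _ hρ
  have h2 : ∀ s, Γ.IsNClique 4 (insert s (σ ∩ σ')) → s = a ∨ s = a' := fun s hs => by
    have e1 := (hb a).1 (ea.symm ▸ hσ)
    have e2 := (hb a').1 (ea'.symm ▸ hσ')
    rcases (hb s).1 hs with rfl | rfl <;> rcases e1 with rfl | rfl <;> rcases e2 with rfl | rfl <;>
      simp_all
  have s1 : β (gen Γ a) ∈ N v ↔ β (gen Γ a) ∈ N w := (hv a m).2.trans (sd_iff H hr o (hw a' m').1).symm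
  have s2 : β (gen Γ a') ∈ N w ↔ β (gen Γ a') ∈ N v :=
    (hw a' m').2.trans (sd_iff H hr o' (hv a m).1).symm
  suffices k : v⁻¹ * w ∈ WT Γ ∅ by simpa [WT, inv_mul_eq_one] using k
  refine mem_WT_of_N fun t0 h0 => False.elim ?_
  obtain ⟨k, k1, -⟩ := exists_aj h0
  have sep : ¬(v * t0 * v⁻¹ ∈ N w ↔ v * t0 * v⁻¹ ∈ N v) := by
    have := @mem_N_conj S Γ v (v⁻¹ * w) t0
    rw [mul_inv_cancel_left] at this
    tauto
  obtain ⟨s, es⟩ := k1.conj v
  have rt : Rl (β.symm (v * t0 * v⁻¹)) := by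
    rw [es, map_mul, map_mul, map_inv]; exact (hr' s).conj _
  have := pingpong β hρ h2 (hr a) (hr a') (v := v) (fun g hg =>
    (far_disj (hv a m).1 (hw a' m').1 (ncomm β o) s1 hg).trans ((hv a m).1.mem_N_mul fun e =>
      ne (gen_injective (β.injective e)))) rt fun b hb => by
    obtain ⟨b1, b2⟩ := Finset.mem_inter.1 hb
    refine ⟨?_, fun e => sep ?_⟩
    · have : Commute (v * t0 * v⁻¹) (β (gen Γ b)) := by
        by_contra n
        exact sep ((hw b b2).1.side (hv b b1).1 n)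
      simpa using this.map β.symm
    · rw [β.symm_apply_eq.1 e, (hw b b2).2, (hv b b1).2]
  rw [β.apply_symm_apply] at this
  rcases this with k | k
  · exact sep (k.2 w v s1.symm Iff.rfl)
  · exact sep (k.2 w v s2 Iff.rfl)

theorem exists_aj_all [Nonempty S] (hr' : ∀ a, Rl (β.symm (gen Γ a))) :
    ∃ v, ∀ a, Aj v (β (gen Γ a)) := by
  have ex : ∀ σ, Γ.IsNClique 4 σ →
      ∃ v, ∀ a ∈ σ, Aj v (β (gen Γ a)) ∧ (β (gen Γ a) ∈ N v ↔ sd β a) := fun σ hσ =>
    exists_common' _ hr (β.injective.comp gen_injective) _ σ fun a ha b hb =>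
      (gen_comm' fun n => hσ.1 ha hb n).map β
  obtain ⟨σ0, h0, -⟩ := H.ext ∅ (by simp)
  obtain ⟨v, hv⟩ := ex σ0 h0
  refine ⟨v, fun a => ?_⟩
  obtain ⟨σ, h1, h2⟩ := H.ext {a} (by simp)
  suffices k : ∀ b ∈ σ, Aj v (β (gen Γ b)) ∧ (β (gen Γ b) ∈ N v ↔ sd β b) from
    (k a (h2 (by simp))).1
  have p := H.dual σ0 σ h0 h1
  clear h1 h2
  induction p with
  | refl => exact hv
  | tail _ e ih =>
    obtain ⟨w, hw⟩ := ex _ e.2.1
    rwa [good_eq H hr hr' e.1 e.2.1 e.2.2 ih hw]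

end Crest.Agent.N233.Rr.G

namespace Crest.Agent.N233.Rr

open Crest.Agent.N255.Ra Dv G

variable {S : Type} {Γ : SimpleGraph S} [DecidableEq S] (H : Hy Γ)
include H

/-- **step (2)** -/
theorem geo [Nonempty S] (β : W Γ ≃* W Γ) (h : ∀ a, ∃ u s, β (gen Γ a) = u * gen Γ s * u⁻¹)
    (h' : ∀ a, ∃ u s, β.symm (gen Γ a) = u * gen Γ s * u⁻¹) :
    ∃ (v : W Γ) (φ : Γ ≃g Γ), ∀ w, β w = v * aut φ w * v⁻¹ := by
  obtain ⟨v, hv⟩ := exists_aj_all H h h'
  choose f hf using hv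
  let γ : W Γ ≃* W Γ := β.trans (MulAut.conj v⁻¹)
  have e : ∀ a, γ (gen Γ a) = gen Γ (f a) := fun a => by simp [γ, hf, mul_assoc]
  have i : Function.Injective f := fun a b k => gen_injective (γ.injective (by rw [e, e, k]))
  have su : Function.Surjective f := fun s => by
    by_contra n
    let χ : W Γ →* ℤˣ := lift (fun a => if a = s then -1 else 1) (fun a => by split_ifs <;> simp)
      fun _ _ _ => Commute.all _ _
    have k : χ.comp γ.toMonoidHom = 1 := hom_ext fun a => by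
      have : f a ≠ s := fun e => n ⟨a, e⟩
      simp [e, χ, this]
    have := DFunLike.congr_fun k (γ.symm (gen Γ s))
    simp [χ] at this
  let φ : Γ ≃g Γ := ⟨Equiv.ofBijective f ⟨i, su⟩, fun {a b} => ⟨fun k => adj_of_comm
    (fun n => k.ne (congrArg f n)) (by
      have := (gen_comm k).map γ.symm
      simp only [Equiv.ofBijective_apply, ← e, MulEquiv.symm_apply_apply] at this
      exact this), fun k => adj_of_comm (i.ne k.ne) (by
      simp only [Equiv.ofBijective_apply, ← e]; exact (gen_comm k).map γ)⟩⟩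
  refine ⟨v, φ, fun w => ?_⟩
  have : γ w = aut φ w := DFunLike.congr_fun (hom_ext (φ := γ.toMonoidHom) (ψ := (aut φ).toMonoidHom)
    fun a => (e a).trans (aut_gen φ a).symm) w
  rw [← this]; simp [γ, mul_assoc]

end Crest.Agent.N233.Rr

end
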