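import Crest.Agent.N233.Rr.One
import Crest.Agent.N233.Rr.Geo

/-!
# Row 233 (helper16): `Aut W = Inn W ⋊ Aut Γ`
-/

set_option autoImplicit false

namespace Crest.Agent.N233.Rr

open N255.Ra

variable {S : Type} [DecidableEq S] [Nonempty S] {Γ : SimpleGraph S}

/-- **rigidity** -/
theorem rig (H : Hy Γ) (β : W Γ ≃* W Γ) :
    ∃ (v : W Γ) (φ : Γ ≃g Γ), ∀ w, β w = v * aut φ w * v⁻¹ :=
  geo H β (H.rf_map β) (H.rf_map β.symm)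

/-- rigidity for `W ⋊ F` -/
theorem rig0 (H : Hy Γ) {F : Type} [Group F] {ρ : F →* MulAut (W Γ)}
    (hF : ∀ f : F, f * f = 1 → f = 1) (bh : W Γ ⋊[ρ] F ≃* W Γ ⋊[ρ] F) :
    ∃ (v : W Γ) (φ : Γ ≃g Γ), ∀ w,
      bh (SemidirectProduct.inl w) = SemidirectProduct.inl (v * aut φ w * v⁻¹) := by
  obtain ⟨β, hβ⟩ := res0 hF bh
  obtain ⟨v, φ, h⟩ := rig H β
  exact ⟨v, φ, fun w => by rw [hβ, h]⟩

end Crest.Agent.N233.Rr
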