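import Crest.Agent.N233.Rr.Cen
import Crest.Agent.N233.Rr.Chr
import Crest.Agent.N233.Rr.Rig
import Crest.Agent.N233.Ma.Defs

/-!
# Row 233 (helper16): the subgroup of an asymmetric binary code is rigid
-/

set_option autoImplicit false

noncomputable section

namespace Crest.Agent.N233.Rr

open N255.Ra Dv SemidirectProduct Relation
open scoped Classical

/-- the generator matrix of the code -/
def cl : Fin 14 → Fin 3 → ZMod 2 :=
  ![![1, 1, 0], ![1, 0, 1], ![0, 1, 1], ![1, 1, 1], ![1, 0, 0], ![1, 0, 0], ![0, 1, 0], ![0, 1, 0],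
    ![0, 1, 0], ![0, 0, 1], ![0, 0, 1], ![0, 0, 1], ![0, 0, 1], ![0, 0, 1]]

/-- the code words -/
def cw (l : Fin 3 → ZMod 2) (j : Fin 14) : ZMod 2 := l 0 * cl j 0 + l 1 * cl j 1 + l 2 * cl j 2

/-- their weights -/
def wt (l : Fin 3 → ZMod 2) : ℕ := (Finset.univ.filter fun j => cw l j ≠ 0).card

theorem wt_inj : ∀ l l', wt l = wt l' → l = l' := by decide +kernel

theorem wt_ge : ∀ l, wt l ≤ 4 → l = 0 := by decide +kernel

theorem cw_sep : ∀ i j : Fin 14, i < 4 → (∀ l, cw l j = cw l i) → j = i := by decide +kernel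

theorem cw_ne : ∀ i : Fin 14, ∃ l, cw l i ≠ 0 := by decide +kernel

section code
variable {K : Type} {a : Fin 14 → K}

variable (a) in
/-- the code on `K` -/
def wd (l : Fin 3 → ZMod 2) : K → ZMod 2 := Function.extend a (cw l) 0

theorem wd_out (l : Fin 3 → ZMod 2) {k : K} (h : ¬∃ j, a j = k) : wd a l k = 0 :=
  Function.extend_apply' _ _ _ h

variable (ha : Function.Injective a)
include ha

theorem wd_in (l : Fin 3 → ZMod 2) (j : Fin 14) : wd a l (a j) = cw l j := ha.extend_apply _ _ j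

theorem wd_add (l l' : Fin 3 → ZMod 2) : wd a (l + l') = wd a l + wd a l' := funext fun k => by
  by_cases h : ∃ j, a j = k
  · obtain ⟨j, rfl⟩ := h
    simp only [Pi.add_apply, wd_in ha, cw]
    ring
  · simp [wd_out _ h]

theorem wd_zero : wd a 0 = 0 := by simpa using wd_add ha 0 0

theorem wd_card (l : Fin 3 → ZMod 2) : {k | wd a l k ≠ 0}.ncard = wt l := by
  rw [wt, ← Set.ncard_coe_finset, ← Set.ncard_image_of_injective _ ha]
  congr 1
  ext k
  by_cases h : ∃ j, a j = k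
  · obtain ⟨j, rfl⟩ := h
    simp [wd_in ha, ha.eq_iff]
  · simp only [Set.mem_ofPred_eq, wd_out _ h, ne_eq, not_true, false_iff]
    exact fun ⟨j, _, e⟩ => h ⟨j, e⟩

/-- a permutation preserving the code fixes the four special coordinates -/
theorem wd_fix {e : K → K} (he : Function.Bijective e) (h : ∀ l, ∃ l', ∀ k, wd a l' (e k) = wd a l k)
    {i : Fin 14} (hi : i < 4) : e (a i) = a i := by
  have k : ∀ l k, wd a l (e k) = wd a l k := fun l => by
    obtain ⟨l', h⟩ := h l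
    rwa [wt_inj l' l (by
      rw [← wd_card ha, ← wd_card ha, ← Set.ncard_preimage_of_injective_subset_range he.1
        (he.2.range_eq ▸ Set.subset_univ _)]
      simp only [Set.preimage_setOf_eq, h])] at h
  obtain ⟨l, hl⟩ := cw_ne i
  obtain ⟨j, hj⟩ : ∃ j, a j = e (a i) := by_contra fun n => hl (by rw [← wd_in ha, ← k, wd_out _ n])
  rw [← hj, cw_sep i j hi fun l => by rw [← wd_in ha, hj, k, wd_in ha]]

end code

variable {S F : Type} [Group F] {Γ : SimpleGraph S} {ρ : F →* (Γ ≃g Γ)}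

/-- the subgroup of the code -/
def cG (C : Col ρ) {a : Fin 14 → C.K} (ha : Function.Injective a) : Subgroup (G0 ρ) where
  carrier := {g | ∃ l, (C.χ0 g).toAdd = wd a l}
  one_mem' := ⟨0, by simp [wd_zero ha]⟩
  mul_mem' := fun ⟨l, h⟩ ⟨l', h'⟩ => ⟨l + l', by rw [map_mul, toAdd_mul, h, h', wd_add ha]⟩
  inv_mem' := fun ⟨l, h⟩ => ⟨l, by rw [map_inv, toAdd_inv, h]; ext k; simp⟩

theorem le_cG (C : Col ρ) {a : Fin 14 → C.K} (ha : Function.Injective a) : C.G ≤ cG C ha :=
  fun g h => ⟨0, by rw [show C.χ0 g = 1 from h, wd_zero ha]; rfl⟩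

theorem chi_sq (C : Col ρ) (g : G0 ρ) : g * g ∈ C.G := by
  change C.χ0 (g * g) = 1
  rw [map_mul]
  ext k
  simp [CharTwo.add_self_eq_zero]

theorem chi_surj (C : Col ρ) (h : Function.Surjective C.κ) (x : C.K → ZMod 2) :
    ∃ w, (C.χ w).toAdd = x := by
  have := C.fin
  induction x using Pi.single_induction with
  | zero => exact ⟨1, by simp⟩
  | add f g hf hg =>
    obtain ⟨u, hu⟩ := hf
    obtain ⟨v, hv⟩ := hg
    exact ⟨u * v, by simp [hu, hv]⟩
  | single k m =>
    obtain ⟨s, rfl⟩ := h k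
    rcases (by decide : ∀ m : ZMod 2, m = 0 ∨ m = 1) m with rfl | rfl
    exacts [⟨1, by simp⟩, ⟨gen Γ s, by simp [Col.χ]⟩]

theorem chi_aut (C : Col ρ) (φ : Γ ≃g Γ) {e : C.K → C.K} (he : Function.Injective e)
    (h : ∀ s, e (C.κ s) = C.κ (φ s)) (w : W Γ) (k : C.K) :
    (C.χ (aut φ w)).toAdd (e k) = (C.χ w).toAdd k := by
  induction w using ind_right with
  | one => simp
  | mul w s ih =>
    simp only [map_mul, toAdd_mul, Pi.add_apply, ih, aut_gen]
    simp [Col.χ, Pi.single_apply, ← h, he.eq_iff]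

variable [DecidableEq S]

theorem good_cG (H : Hy Γ) (C : Col ρ) {a : Fin 14 → C.K} (ha : Function.Injective a) :
    Ma.Good (cG C ha) where
  normal := ⟨fun g ⟨l, h⟩ u => ⟨l, by
    rw [C.χ0.map_mul, C.χ0.map_mul, map_inv, mul_inv_cancel_comm, h]⟩⟩
  fi := Subgroup.finiteIndex_of_le (le_cG C ha)
  inr f := le_cG C ha (C.inr_mem f)
  sq g := le_cG C ha (chi_sq C g)
  tf g := fun ⟨l, h⟩ hg v A hA m => by
    refine C.tf g ?_ hg v A hA m
    have e : C.χ (v⁻¹ * g.left * v) = C.χ0 g := by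
      rw [map_mul, map_mul, map_inv, inv_mul_cancel_comm]; rfl
    have : wt l ≤ 4 := by
      lift A to Finset S using hA.1
      rw [← wd_card ha, ← h, ← e]
      refine le_trans (Set.ncard_le_ncard (t := C.κ '' A) (fun k hk => by_contra fun n =>
        hk (chi_WT C m fun s hs q => n ⟨s, hs, q⟩))) ((Set.ncard_image_le).trans ?_)
      simpa using H.le4 A hA.2
    rw [wt_ge l this, wd_zero ha] at h
    exact h

/-- an automorphism fixing a tetrahedron is trivial -/
theorem Hy.eq_of_fix (H : Hy Γ) (φ : Γ ≃g Γ) {σ : Finset S} (hσ : Γ.IsNClique 4 σ)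
    (h : ∀ s ∈ σ, φ s = s) (s : S) : φ s = s := by
  obtain ⟨τ, hτ, m⟩ := H.ext {s} (by simp)
  refine (?_ : ∀ s ∈ τ, φ s = s) s (m (by simp))
  clear m s
  induction H.dual σ τ hσ hτ with
  | refl => exact h
  | @tail x y _ k ih =>
    replace ih := ih k.1
    intro s hs
    by_contra n
    have sx : s ∉ x := fun q => n (ih s q)
    have h3 : Γ.IsNClique 3 (x ∩ y) := ⟨k.1.1.subset (by simp), k.2.2⟩
    have e : ∀ {z : Finset S} {c : S}, Γ.IsNClique 4 z → x ∩ y ⊆ z → c ∈ z → c ∉ x ∩ y →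
        Γ.IsNClique 4 (insert c (x ∩ y)) := fun hz sub hc nc =>
      ⟨hz.1.subset (Finset.coe_subset.2 (Finset.insert_subset hc sub)),
        by rw [Finset.card_insert_of_notMem nc, k.2.2]⟩
    obtain ⟨p, hp, np⟩ := Finset.exists_mem_notMem_of_card_lt_card (s := x ∩ y) (t := x)
      (by rw [k.2.2, k.1.2]; omega)
    obtain ⟨u, v, -, q⟩ := H.two _ h3
    have e1 := (q p).1 (e k.1 Finset.inter_subset_left hp np)
    have a2 := e k.2.1 Finset.inter_subset_right hs fun m => sx (Finset.mem_inter.1 m).1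
    have e3 := (q (φ s)).1 (h3.insert fun c hc => by
      rw [← ih c (Finset.mem_inter.1 hc).1, φ.map_adj_iff]
      exact k.2.1.1 hs (Finset.mem_inter.1 hc).2 fun m => sx (m ▸ (Finset.mem_inter.1 hc).1))
    have n1 : s ≠ p := fun m => sx (m ▸ hp)
    have n2 : φ s ≠ p := fun m => n1 (φ.injective (m.trans (ih p hp).symm))
    rcases e1 with rfl | rfl <;> rcases (q s).1 a2 with rfl | rfl <;> tauto

omit [DecidableEq S] in
variable (ρ) in
/-- the orbits -/
def orb : Setoid S := ⟨fun s t : S => ∃ f : F, ρ f s = t, fun s => ⟨1, by simp⟩,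
    fun ⟨f, e⟩ => ⟨f⁻¹, by rw [← e, map_inv]; exact (ρ f).symm_apply_apply _⟩,
    fun ⟨f, e⟩ ⟨g, e'⟩ => ⟨g * f, by rw [map_mul, ← e', ← e]; rfl⟩⟩

/-- the colouring by the orbits -/
def Fr.col (R : Fr ρ) : Col ρ where
  K := Quotient (orb ρ)
  fin := by
    obtain ⟨B, hB, h⟩ := R.fin
    refine Set.finite_univ_iff.1 ((hB.image (Quotient.mk _)).subset fun k _ => ?_)
    obtain ⟨s, rfl⟩ := Quotient.exists_rep k
    obtain ⟨f, hf⟩ := h s
    exact ⟨_, hf, (Quotient.sound (s := orb ρ) ⟨f, rfl⟩).symm⟩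
  κ := Quotient.mk _
  adj s t h e := by
    obtain ⟨f, rfl⟩ := Quotient.exact e
    exact R.adj f s h
  inv f s := (Quotient.sound (s := orb ρ) ⟨f, rfl⟩).symm

theorem Fr.col_eq (R : Fr ρ) {s t : S} : R.col.κ s = R.col.κ t ↔ ∃ f : F, ρ f s = t := Quotient.eq

/-- an automorphism that is geometric on `W` normalises `F` -/
theorem Fr.norm (R : Fr ρ) (b : G0 ρ ≃* G0 ρ) (φ : Γ ≃g Γ) (h : ∀ w, b (inl w) = inl (aut φ w))
    (f : F) : ∃ f', b (inr f) = inr f' ∧ ∀ s, φ (ρ f s) = ρ f' (φ s) := by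
  have key : ∀ s, gen Γ (φ (ρ f s)) =
      (b (inr f)).left * gen Γ (ρ (b (inr f)).right (φ s)) * (b (inr f)).left⁻¹ := fun s => by
    have e : (inl (gen Γ (ρ f s)) : G0 ρ) * inr f = inr f * inl (gen Γ s) := by
      ext <;> simp [autHom_apply]
    have := congrArg (fun g => (b g).left) e
    simp only [map_mul, h, mul_left, left_inl, right_inl, map_one, MulAut.one_apply, autHom_apply,
      aut_gen] at this
    rw [← this, mul_inv_cancel_right]
  have e := fun s => gen_conj (key s)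
  refine ⟨(b (inr f)).right, SemidirectProduct.ext (cenW R.b3 fun s t _ _ => ⟨0, ?_⟩) rfl, e⟩
  have c : ∀ s, Commute (b (inr f)).left (gen Γ s) := fun s => by
    obtain ⟨s, rfl⟩ := φ.surjective s
    obtain ⟨s, rfl⟩ := (ρ f).surjective s
    have := key s
    rw [← e] at this
    exact mul_inv_eq_iff_eq_mul.1 this.symm
  exact ((c s).mul_right (c t)).pow_right _

/-- **step (3)** -/
theorem Fr.inn (R : Fr ρ) {a : Fin 14 → S} (ha : Function.Injective (R.col.κ ∘ a))
    (h4 : ∀ i j : Fin 14, i < 4 → j < 4 → i ≠ j → Γ.Adj (a i) (a j)) (b : G0 ρ ≃* G0 ρ)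
    (hb : ∀ g ∈ cG R.col ha, b g ∈ cG R.col ha) : ∃ u, ∀ g, b g = u * g * u⁻¹ := by
  have : Nonempty S := ⟨a 0⟩
  have := R.col.fin
  obtain ⟨v, φ, h⟩ := rig0 R.hy R.inv b
  let b1 := b.trans (MulAut.conj (inl v : G0 ρ)⁻¹)
  have h1 : ∀ w, b1 (inl w) = inl (aut φ w) := fun w => by simp [b1, h, mul_assoc]
  let e : R.col.K → R.col.K := Quotient.lift (fun s => R.col.κ (φ s)) fun s t ⟨f, m⟩ => by
    obtain ⟨f', -, q⟩ := R.norm b1 φ h1 f
    exact R.col_eq.2 ⟨f', by rw [← q, m]⟩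
  have es : Function.Surjective e := fun k => by
    obtain ⟨s, rfl⟩ := Quotient.exists_rep k
    obtain ⟨s, rfl⟩ := φ.surjective s
    exact ⟨R.col.κ s, rfl⟩
  have eb := es.bijective_of_finite
  have fx : ∀ i : Fin 14, i < 4 → ∃ f, ρ f (φ (a i)) = a i := fun i hi =>
    R.col_eq.1 (wd_fix ha eb (fun l => by
      obtain ⟨w, hw⟩ := chi_surj R.col Quotient.mk_surjective (wd (R.col.κ ∘ a) l)
      obtain ⟨l', q⟩ := (good_cG R.hy R.col ha).normal.conj_mem _ (hb (inl w) ⟨l, hw⟩) (inl v)⁻¹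
      refine ⟨l', fun k => ?_⟩
      rw [← q, ← hw, ← chi_aut R.col φ eb.1 (fun _ => rfl) w k]
      exact congrArg (fun g => (R.col.χ0 g).toAdd (e k)) (h1 w)) hi)
  obtain ⟨f, hf⟩ := fx 0 (by decide)
  have id : ∀ s, ρ f (φ s) = s := R.hy.eq_of_fix (φ.trans (ρ f))
    (σ := (Finset.univ.filter fun i : Fin 14 => i < 4).image a) ⟨by
      rw [Finset.coe_image]
      rintro _ ⟨i, hi, rfl⟩ _ ⟨j, hj, rfl⟩ n
      exact h4 i j (by simpa using hi) (by simpa using hj) fun m => n (m ▸ rfl), by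
      rw [Finset.card_image_of_injective _ ha.of_comp]; decide⟩ fun s hs => by
    obtain ⟨i, hi, rfl⟩ := Finset.mem_image.1 hs
    replace hi : i < 4 := by simpa using hi
    by_cases m : i = 0
    · exact m ▸ hf
    obtain ⟨g, hg⟩ := fx i hi
    have j := h4 0 i (by decide) hi (Ne.symm m)
    have q : ρ (f * g⁻¹) (a i) = ρ f (φ (a i)) := by
      rw [← hg, map_mul, map_inv, hg]
      exact congrArg _ ((ρ g).symm_apply_eq.2 hg.symm)
    have := R.loc (f * g⁻¹) _ _ j (by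
      rw [q, ← hf, (ρ f).map_adj_iff, φ.map_adj_iff]; exact j)
    exact q.symm.trans (by rw [this, map_one]; rfl)
  let b2 := b1.trans (MulAut.conj (inr f : G0 ρ))
  have h2 : ∀ w, b2 (inl w) = inl w := fun w => by
    have : aut (ρ f) (aut φ w) = w :=
      DFunLike.congr_fun (hom_ext (φ := (aut (ρ f)).toMonoidHom.comp (aut φ).toMonoidHom)
        (ψ := MonoidHom.id _) fun s => by simp [id]) w
    simp only [b2, MulEquiv.trans_apply, h1, MulAut.conj_apply]
    rw [← map_inv, ← inl_aut, autHom_apply, this]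
  have h3 : ∀ g, b2 (inr g) = inr g := fun g => by
    obtain ⟨g', m, q⟩ := R.norm b2 (RelIso.refl _) (fun w => by
      rw [h2]; exact congrArg _ (DFunLike.congr_fun (hom_ext (φ := MonoidHom.id _)
        (ψ := (aut (RelIso.refl Γ.Adj)).toMonoidHom) fun s => by simp) w)) g
    rw [m, ← mul_inv_eq_one.1 (R.free (g * g'⁻¹) (ρ g' (a 0)) (by
      rw [map_mul, map_inv]
      exact (congrArg _ ((ρ g').symm_apply_apply _)).trans (q _)))]
  refine ⟨inl v * (inr f)⁻¹, fun g => ?_⟩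
  have : b2 g = g := by rw [← inl_left_mul_inr_right g, map_mul, h2, h3]
  simp only [b2, b1, MulEquiv.trans_apply, MulAut.conj_apply] at this
  conv_rhs => rw [← this]
  group

/-- **the code subgroup** -/
theorem code (R : Fr ρ) [Group.FG (G0 ρ)] (fin : Ma.FinA ρ) : Ma.CodeO ρ := by
  obtain ⟨a, h, h4⟩ := R.big
  have ha : Function.Injective (R.col.κ ∘ a) := fun i j e => (R.col_eq.1 e).elim (h i j)
  have g := good_cG R.hy R.col ha
  have := g.fi
  refine ⟨cG R.col ha, g, ⟨R.cen _, fun b hb => (R.inn ha h4 b fun x => (hb x).2).imp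
    fun _ e x _ => e x⟩, fin_sub _ (fun u _ => R.cen _ u) (fin _ inferInstance fun x hx _ => ?_)⟩
  exact ni_col R.col (sq2'_le_ker _ R.col.χ0 hx)

end Crest.Agent.N233.Rr

end
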