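import Crest.Agent.N233.Dv.Wall
import Crest.Agent.N255.Fa.Q0

/-!
# Row 233 (helper16): reflections, centralisers, involutions and walls in a right-angled Coxeter group
-/

set_option autoImplicit false

noncomputable section

namespace Crest.Agent.N233.Rr

open N255.Ra Dv N255.Fa
open scoped Classical

variable {S : Type} {Γ : SimpleGraph S} {u v w g x q q' r : W Γ} {s t : S} {A : Set S}

/-- reflections -/
def Rx (r : W Γ) : Prop := ∃ u s, r = u * gen Γ s * u⁻¹

/-- the chamber `u` touches the wall `r` -/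
def Ad (r u : W Γ) : Prop := ∃ s, r = u * gen Γ s * u⁻¹

variable (Γ) in
/-- the star of a set -/
def star (A : Set S) : Set S := {s | ∀ t ∈ A, s ≠ t → Γ.Adj s t}

variable (Γ) in
/-- the parity of one letter -/
def par (s : S) : W Γ →* ℤˣ :=
  lift (fun x => if x = s then -1 else 1) (fun x => by split_ifs <;> simp) fun _ _ _ => Commute.all _ _

theorem par_gen (s t : S) : par Γ s (gen Γ t) = if t = s then -1 else 1 := lift_gen _ _ _ t

/-- conjugate generators are equal -/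
theorem gen_conj (h : gen Γ t = u * gen Γ s * u⁻¹) : t = s := by
  have := congrArg (par Γ s) h
  rw [map_mul, map_mul, map_inv, mul_inv_cancel_comm, par_gen, par_gen, if_pos rfl] at this
  by_contra e
  rw [if_neg e] at this
  exact absurd this (by decide)

theorem adj_of_In (h : Commute g (gen Γ t)) (hs : s ∈ In g) (e : s ≠ t) : Γ.Adj s t := by
  by_cases ht : t ∈ In g
  · exact In_clique g hs ht e
  have h1 : t ∉ Init g := fun k => by
    have := len_mem' k
    have := len_nmem ht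
    rw [h.eq] at this
    omega
  exact In_clique (g * gen Γ t) (h.eq ▸ In_left h1 hs) (mem_In_mul_self.2 ht) e

/-- **centralisers of generators** -/
theorem cent (h : ∀ t ∈ A, Commute g (gen Γ t)) : g ∈ WT Γ (star Γ A) := by
  induction g using ind_red with
  | one => exact one_mem _
  | mul w s hs ih =>
    have k : s ∈ star Γ A := fun t ht => adj_of_In (h t ht) (mem_In_mul_self.2 hs)
    refine mul_mem (ih fun t ht => ?_) (gen_mem_WT k)
    simpa using (h t ht).mul_left (gen_comm' (k t ht))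

theorem comm_star (h : g ∈ WT Γ (star Γ A)) (ht : t ∈ A) : Commute g (gen Γ t) :=
  (comm_WT (fun s hs e => (hs t ht e.symm).symm) h).symm

theorem N_WT (h : g ∈ WT Γ A) : ∀ r ∈ N g, ∃ u ∈ WT Γ A, ∃ s ∈ A, r = u * gen Γ s * u⁻¹ := by
  induction h using Subgroup.closure_induction with
  | mem x hx =>
    obtain ⟨s, hs, rfl⟩ := hx
    exact fun r hr => ⟨1, one_mem _, s, hs, by simpa using hr⟩
  | one => simp
  | mul x y hx _ h1 h2 =>
    intro r hr
    by_cases e : r ∈ N x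
    · exact h1 r e
    obtain ⟨u, hu, s, hs, k⟩ := h2 (x⁻¹ * r * x) (by rw [mem_N_mul] at hr; tauto)
    exact ⟨x * u, mul_mem hx hu, s, hs, by rw [conj_iff.1 k]; group⟩
  | inv x hx h =>
    intro r hr
    obtain ⟨u, hu, s, hs, k⟩ := h _ (mem_N_inv.1 hr)
    exact ⟨x⁻¹ * u, mul_mem (inv_mem hx) hu, s, hs, by
      rw [show r = x⁻¹ * (x * r * x⁻¹) * x by group, k]; group⟩

theorem Init_WT (h : g ∈ WT Γ A) (hs : s ∈ Init g) : s ∈ A := by
  obtain ⟨u, -, t, ht, e⟩ := N_WT h _ (gen_mem_N.2 hs)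
  exact gen_conj e ▸ ht

theorem mem_of_gen_WT (h : gen Γ s ∈ WT Γ A) : s ∈ A := Init_WT h (by simp [Init_eq])

/-- a wall is crossed by a geodesic -/
theorem path (h : r ∈ N g) : ∃ u, Ad r u ∧ N u ⊆ N g := by
  induction g using ind_red with
  | one => simp at h
  | mul w s hs ih =>
    have k : N w ⊆ N (w * gen Γ s) := fun q hq => mem_N_mul_gen.2 fun e =>
      hs (last_mem_N.1 (e.1 hq ▸ hq))
    by_cases e : r ∈ N w
    · exact (ih e).imp fun u hu => ⟨hu.1, hu.2.trans k⟩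
    · exact ⟨w, ⟨s, by rw [mem_N_mul_gen] at h; tauto⟩, k⟩

theorem N_comm (h : Commute x r) : r ∈ N (x * v) ↔ ¬(r ∈ N x ↔ r ∈ N v) := by
  rw [mem_N_mul, mul_assoc, ← h.eq, inv_mul_cancel_left]

theorem N_conj (h : Commute x r) : g * r * g⁻¹ ∈ N (g * x * g⁻¹) ↔ r ∈ N x := by
  rw [mul_assoc g x, mem_N_mul, show g⁻¹ * (g * r * g⁻¹) * g = r by group, N_comm h, mem_N_inv]
  tauto

theorem Rx.mem (h : Rx r) : r ∈ N r := by
  obtain ⟨u, s, rfl⟩ := h
  rw [N_conj (Commute.refl _), mem_N_gen]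

theorem Rx.nmem (h : Rx r) (c : Commute r q) (e : q ≠ r) : q ∉ N r := by
  obtain ⟨u, s, rfl⟩ := h
  have c' : Commute (gen Γ s) (u⁻¹ * q * u) := by
    simpa [mul_assoc] using c.conj u⁻¹
  rw [show q = u * (u⁻¹ * q * u) * u⁻¹ by group, N_conj c', mem_N_gen, conj_iff]
  exact e

theorem Rx.sq (h : Rx r) : r * r = 1 := by
  obtain ⟨u, s, rfl⟩ := h
  simp [mul_assoc]

theorem Rx.conj (h : Rx r) (g : W Γ) : Rx (g * r * g⁻¹) := by
  obtain ⟨u, s, rfl⟩ := h
  exact ⟨g * u, s, by group⟩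

theorem Rx.flip (h : Rx r) : r ∈ N (r * v) ↔ r ∉ N v := by
  rw [N_comm (Commute.refl r)]; simp [h.mem]

theorem Rx.keep (h : Rx r) (c : Commute r q) (e : q ≠ r) : q ∈ N (r * v) ↔ q ∈ N v := by
  rw [N_comm c]; simp [h.nmem c e]

theorem Ad.rf (h : Ad r u) : Rx r := ⟨u, h⟩

theorem Ad.mul (h : Ad r u) (c : Commute x r) : Ad r (x * u) := h.imp fun s e => by
  rw [show x * u * gen Γ s * (x * u)⁻¹ = x * (u * gen Γ s * u⁻¹) * x⁻¹ by group, ← e, c.eq,
    mul_inv_cancel_right]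

theorem same_iff : (q ∈ N u ↔ q ∈ N v) ↔ u⁻¹ * q * u ∉ N (u⁻¹ * v) := by
  have := @mem_N_mul S Γ u (u⁻¹ * v) q
  rw [mul_inv_cancel_left] at this
  tauto

theorem same_mul : (g * q * g⁻¹ ∈ N (g * u) ↔ g * q * g⁻¹ ∈ N (g * v)) ↔ (q ∈ N u ↔ q ∈ N v) := by
  rw [same_iff, same_iff]
  congr! 2 <;> group

/-- a wall separating two chambers that touch `q` crosses `q` -/
theorem comm_of_sep (h : Ad q u) (h' : Ad q v) (k : ¬(r ∈ N u ↔ r ∈ N v)) : Commute r q := by
  obtain ⟨t, e⟩ := h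
  obtain ⟨t', e'⟩ := h'
  have h1 : gen Γ t = u⁻¹ * v * gen Γ t' * (u⁻¹ * v)⁻¹ := by
    rw [← conj_iff.2 e, e']; group
  obtain rfl := gen_conj h1
  have h2 : u⁻¹ * v ∈ WT Γ (star Γ {t}) := cent fun _ ht => by
    rw [ht]; exact (mul_inv_eq_iff_eq_mul.1 h1.symm)
  obtain ⟨y, hy, s, hs, k⟩ := N_WT h2 _ (not_not.1 (mt same_iff.2 k))
  rw [e, conj_iff.1 k]
  exact (comm_star (mul_mem (mul_mem hy (gen_mem_WT hs)) (inv_mem hy)) rfl).conj u

/-- **disjoint walls are nested** -/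
theorem nest (n : ¬Commute q q') (h : Ad q u) (h' : Ad q' v) (w : W Γ) :
    (q ∈ N w ↔ q ∈ N v) ∨ (q' ∈ N w ↔ q' ∈ N u) := by
  by_contra c
  rw [not_or] at c
  obtain ⟨z, hz, k⟩ : ∃ z, Ad q' z ∧ (q' ∈ N z ↔ q' ∈ N w) := by
    by_cases e : q' ∈ N v ↔ q' ∈ N w
    · exact ⟨v, h', e⟩
    · exact ⟨q' * v, h'.mul (Commute.refl _), h'.rf.flip.trans (not_iff.1 e)⟩
  have h1 : q ∈ N z ↔ q ∈ N v := by_contra fun e => n (comm_of_sep hz h' e)
  have h0 : z⁻¹ * q * z ∈ N (z⁻¹ * w) := by_contra fun e => c.1 ((same_iff.2 e).symm.trans h1)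
  obtain ⟨y, ⟨s, e⟩, hy⟩ := path h0
  have h2 : q' ∈ N z ↔ q' ∈ N (z * y) := same_iff.2 fun m =>
    same_iff.1 k (hy (by rwa [inv_mul_cancel_left] at m))
  exact n (comm_of_sep (v := z * y) h ⟨s, by rw [conj_iff.1 e]; group⟩
    fun m => c.2 (k.symm.trans (h2.trans m.symm))).symm

variable [DecidableEq S]

/-- **involutions** -/
theorem inv_conj (h : x * x = 1) :
    ∃ (u : W Γ) (σ : Finset S), Γ.IsClique (σ : Set S) ∧ x = u * pr Γ σ * u⁻¹ := by
  induction hn : len x using Nat.strong_induction_on generalizing x with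
  | _ n ih =>
  by_cases c : ∃ s, len (gen Γ s * x * gen Γ s) < len x
  · obtain ⟨s, hs⟩ := c
    obtain ⟨u, σ, hσ, e⟩ := ih _ (hn ▸ hs) (x := gen Γ s * x * gen Γ s)
      (by simp [mul_assoc, ← mul_assoc x x, h]) rfl
    refine ⟨gen Γ s * u, σ, hσ, ?_⟩
    rw [show gen Γ s * u * pr Γ σ * (gen Γ s * u)⁻¹ = gen Γ s * (u * pr Γ σ * u⁻¹) * (gen Γ s)⁻¹ by
      group, ← e]
    simp [mul_assoc]
  have ii : ∀ {y : W Γ}, y * y = 1 → Init y = In y := fun e => by
    rw [Init_eq, inv_eq_of_mul_eq_one_right e]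
  have cm : ∀ s ∈ InF x, Commute x (gen Γ s) := fun s hs => by
    have hs : s ∈ In x := by simpa using hs
    have h1 : s ∉ Init (x * gen Γ s) := fun k => c ⟨s, by
      have := len_mem' k
      have := len_mem hs
      rw [mul_assoc]; omega⟩
    have := cross _ s h1 (by rwa [mul_gen_gen, ii h])
    rw [mul_gen_gen] at this
    rw [Commute, SemiconjBy]
    conv_rhs => rw [this, gen_gen_mul]
  have cl := InF_clique x
  have cp : Commute x (pr Γ (InF x)) :=
    ((Subgroup.closure_le (Subgroup.centralizer {x})).2 (by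
      rintro _ ⟨s, hs, rfl⟩ _ rfl
      exact (cm s hs).eq) (pr_mem_WT subset_rfl) x rfl)
  refine ⟨1, InF x, cl, ?_⟩
  rw [one_mul, inv_one, mul_one, ← pr_inv cl, ← mul_eq_one_iff_eq_inv]
  by_contra e
  obtain ⟨t, ht⟩ := In_nonempty e
  have nm : ∀ s ∈ InF x, s ∉ In (x * pr Γ (InF x)) := fun s hs k => by
    have := (mem_In_mul_pr cl subset_rfl hs).1 k
    exact this.1 (by simpa using hs) hs
  have ad : ∀ s ∈ InF x, Γ.Adj s t := fun s hs =>
    (adj_of_In ((cm s hs).mul_left (comm_pr fun r hr e => cl hs hr e).symm) ht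
      fun e => nm s hs (e ▸ ht)).symm
  exact nm t (by simpa using (mem_In_mul_pr_adj cl ad).1 ht) ht

/-- the centraliser of a product of commuting generators -/
theorem comm_of_pr {σ : Finset S} (hσ : Γ.IsClique (σ : Set S)) (hs : s ∈ σ)
    (h : Commute g (pr Γ σ)) : Commute g (gen Γ s) := by
  have h1 := (N_conj (g := g) (comm_pr fun r hr e => hσ hs hr e).symm).2 ((gen_mem_N_pr hσ).2 hs)
  rw [h.eq, mul_inv_cancel_right] at h1
  obtain ⟨t, -, e⟩ := N_sub_of_WT hσ (pr_mem_WT subset_rfl) h1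
  obtain rfl := gen_conj e
  exact mul_inv_eq_iff_eq_mul.1 e.symm

end Crest.Agent.N233.Rr

end
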