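import Crest.Agent.N233.Rr.One
import Crest.Agent.N233.Rr.Fr
import Crest.Agent.N233.Dv.Top

/-!
# Row 233 (helper16): subgroups of finite index have trivial centraliser; no inversion
-/

set_option autoImplicit false

noncomputable section

namespace Crest.Agent.N233.Rr

open N255.Ra Dv N255.Fa
open scoped Classical

variable {S F : Type} [Group F] {Γ : SimpleGraph S} {ρ : F →* (Γ ≃g Γ)} {s t : S} {w : W Γ}

theorem up_pow (e : s ≠ t) (n : ¬Γ.Adj s t) (hs : s ∉ In w) (k : ℕ) :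
    len (w * (gen Γ s * gen Γ t) ^ k) = len w + 2 * k ∧ s ∉ In (w * (gen Γ s * gen Γ t) ^ k) ∧
      Init w ⊆ Init (w * (gen Γ s * gen Γ t) ^ k) := by
  induction k with
  | zero => simpa using hs
  | succ k ih =>
    obtain ⟨h1, h2, h3⟩ := ih
    have h4 : t ∉ In (w * (gen Γ s * gen Γ t) ^ k * gen Γ s) := by
      rw [In_mul_of_nmem h2]
      exact fun m => m.elim e.symm fun m => n m.2
    rw [pow_succ, ← mul_assoc, ← mul_assoc, len_nmem h4, len_nmem h2, In_mul_of_nmem h4]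
    exact ⟨by omega, fun m => m.elim e fun m => n m.2.symm,
      fun a ha => Init_up h4 (Init_up h2 (h3 ha))⟩

theorem len_pow (e : s ≠ t) (n : ¬Γ.Adj s t) (k : ℕ) : len ((gen Γ s * gen Γ t) ^ k) = 2 * k := by
  simpa using (up_pow (w := 1) e n (by simp) k).1

theorem cenW (b3 : ∀ (a : S) (σ : Set S), Γ.IsClique σ → ∃ c, c ≠ a ∧ ¬Γ.Adj a c ∧ c ∉ σ)
    (h : ∀ s t, s ≠ t → ¬Γ.Adj s t → ∃ k, Commute w ((gen Γ s * gen Γ t) ^ (k + 1))) : w = 1 := by
  by_contra c
  obtain ⟨a, ha⟩ := In_nonempty (inv_ne_one.2 c)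
  rw [← Init_eq] at ha
  obtain ⟨s, s1, s2, s3⟩ := b3 a _ (In_clique w)
  obtain ⟨t, t1, t2, -⟩ := b3 s ∅ (by simp)
  obtain ⟨k, hk⟩ := h s t t1.symm t2
  obtain ⟨h1, -, h3⟩ := up_pow t1.symm t2 s3 (k + 1)
  refine s2 (Init_clique _ (h3 ha) (by_contra fun m => ?_) s1.symm)
  have h4 := len_nmem' m
  rw [h1, hk.eq, pow_succ', mul_assoc, mul_assoc, gen_gen_mul] at h4
  have := len_mul_le (gen Γ t) ((gen Γ s * gen Γ t) ^ k * w)
  have := len_mul_le ((gen Γ s * gen Γ t) ^ k) w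
  rw [len_pow t1.symm t2] at this
  rw [len_gen] at *
  omega

variable (Γ) in
/-- the retraction onto a special subgroup -/
def ret (A : Set S) : W Γ →* W Γ :=
  lift (fun u => if u ∈ A then gen Γ u else 1) (fun u => by split_ifs <;> simp)
    fun u v h => by split_ifs <;> simp [gen_comm h]

theorem ret_gen (A : Set S) (u : S) : ret Γ A (gen Γ u) = if u ∈ A then gen Γ u else 1 :=
  lift_gen _ _ _ u

theorem letters {s' t' : S} (e : s ≠ t) (n : ¬Γ.Adj s t) {k : ℕ}
    (h : w * (gen Γ s' * gen Γ t') ^ (k + 1) = (gen Γ s * gen Γ t) ^ (k + 1) * w) :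
    s' ∈ ({s, t} : Set S) ∧ t' ∈ ({s, t} : Set S) := by
  by_contra c
  have h1 := congrArg (ret Γ {s, t}) h
  simp only [map_mul, map_pow] at h1
  rw [ret_gen _ s, ret_gen _ t, if_pos (by simp), if_pos (by simp), ← mul_inv_eq_iff_eq_mul] at h1
  have h2 : (ret Γ {s, t} (gen Γ s') * ret Γ {s, t} (gen Γ t')) ^ 2 = 1 := by
    rw [ret_gen, ret_gen]
    split_ifs with a b
    exacts [(c ⟨a, b⟩).elim, by simp [sq], by simp [sq], by simp]
  have h3 := len_pow e n ((k + 1) * 2)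
  rw [pow_mul, ← h1, conj_pow, ← pow_mul, mul_comm (k + 1), pow_mul, h2] at h3
  simp at h3

/-- **trivial centralisers** -/
theorem Fr.cen [DecidableEq S] (R : Fr ρ) (H : Subgroup (G0 ρ)) [H.FiniteIndex] (u : G0 ρ)
    (h : ∀ g ∈ H, u * g = g * u) : u = 1 := by
  have key : ∀ s t, ∃ k, u.left * (gen Γ (ρ u.right s) * gen Γ (ρ u.right t)) ^ (k + 1) =
      (gen Γ s * gen Γ t) ^ (k + 1) * u.left := fun s t => by
    obtain ⟨n, h0, -, m⟩ := H.exists_pow_mem_of_index_ne_zero Subgroup.FiniteIndex.index_ne_zero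
      (.inl (gen Γ s * gen Γ t))
    obtain ⟨k, rfl⟩ := Nat.exists_eq_succ_of_ne_zero h0.ne'
    have := congrArg SemidirectProduct.left (h _ m)
    rw [← map_pow, SemidirectProduct.mul_left, SemidirectProduct.mul_left, SemidirectProduct.left_inl,
      SemidirectProduct.right_inl, map_one, MulAut.one_apply] at this
    exact ⟨k, by simpa [autHom_apply] using this⟩
  obtain ⟨a, -⟩ := R.big
  obtain ⟨t, t1, t2, -⟩ := R.b3 (a 0) ∅ (by simp)
  obtain ⟨k, hk⟩ := key (a 0) t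
  have h1 : u.right = 1 := by
    rcases letters t1.symm t2 hk with ⟨e | e, e' | e'⟩
    · exact R.free _ _ e
    · exact R.free _ _ e
    · exact R.inv _ (R.free _ t (by rw [map_mul]; exact (congrArg _ e').trans e))
    · exact R.free _ _ e'
  refine SemidirectProduct.ext (cenW R.b3 fun s t _ _ => (key s t).imp fun k e => ?_) h1
  simpa [h1, commute_iff_eq] using e

theorem chi_WT (C : Col ρ) {A : Set S} {u : W Γ} (h : u ∈ WT Γ A) {k : C.K} (hk : ∀ s ∈ A, C.κ s ≠ k) :
    (C.χ u).toAdd k = 0 := by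
  induction h using Subgroup.closure_induction with
  | mem x hx =>
    obtain ⟨s, hs, rfl⟩ := hx
    simp [Col.χ, (hk s hs).symm]
  | one => simp
  | mul x y _ _ h1 h2 => simp [h1, h2]
  | inv x _ h => simp [h]

/-- **no inversion** inside the kernel of a colour character -/
theorem ni_col (C : Col ρ) {g : G0 ρ} (hg : g ∈ C.G) (v : W Γ) (a : S) (u : W Γ)
    (hu : u ∈ WT Γ (Γ.neighborSet a)) : g.left ≠ v * (u * gen Γ a) * v⁻¹ := fun e => by
  have h := C.mem_G.1 hg
  rw [e, map_mul, map_mul, map_inv, mul_inv_cancel_comm, map_mul] at h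
  have := congrArg (fun x => x.toAdd (C.κ a)) h
  simp only [toAdd_mul, Pi.add_apply, chi_WT C hu fun s hs => (C.adj _ _ hs).symm] at this
  simp [Col.χ] at this

end Crest.Agent.N233.Rr

end
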