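import Crest.Agent.N233.Rr.Bas
import Crest.Agent.N233.Rr.Hy

/-!
# Row 233 (helper16): automorphisms map reflections to reflections and preserve `W` in `W ⋊ F`
-/

set_option autoImplicit false

noncomputable section

namespace Crest.Agent.N233.Rr

open N255.Ra Dv

/-- involutions with a minimal double centraliser -/
def Mi {G : Type} [Group G] (x : G) : Prop :=
  x * x = 1 ∧ x ≠ 1 ∧ ∀ y, (∀ g, Commute g x → Commute g y) → y = 1 ∨ y = x

theorem Mi.map {G G' : Type} [Group G] [Group G'] (β : G ≃* G') {x : G} (h : Mi x) : Mi (β x) := by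
  refine ⟨by rw [← map_mul, h.1, map_one], by simpa using h.2.1, fun y hy => ?_⟩
  obtain ⟨y, rfl⟩ := β.surjective y
  rw [β.map_eq_one_iff, β.apply_eq_iff_eq]
  exact h.2.2 y fun g hg => β.injective (by simpa using (hy (β g) (hg.map β)).eq)

variable {S : Type} [DecidableEq S] {Γ : SimpleGraph S} {a b : S} {x : W Γ}

theorem Mi.rf (h : Mi x) : Rx x := by
  obtain ⟨u, σ, hσ, e⟩ := inv_conj h.1
  have k := h.map (MulAut.conj u⁻¹)
  rw [show MulAut.conj u⁻¹ x = pr Γ σ by rw [e]; simp [mul_assoc]] at k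
  obtain ⟨s, hs⟩ := σ.nonempty_iff_ne_empty.2 fun n => k.2.1 (by rw [n, pr_empty])
  exact ⟨u, s, by rw [e, ← (k.2.2 _ fun g => comm_of_pr hσ hs).resolve_left (gen_ne_one s)]⟩

/-- the other apex of a triangle -/
theorem Hy.apex (H : Hy Γ) {σ : Finset S} (hσ : Γ.IsNClique 4 σ) (hb : b ∈ σ) :
    ∃ c, c ≠ b ∧ ¬Γ.Adj c b ∧ ∀ s ∈ σ, s ≠ b → Γ.Adj c s := by
  have h3 : Γ.IsNClique 3 (σ.erase b) := hσ.erase_of_mem hb
  obtain ⟨p, q, n, k⟩ := H.two _ h3
  obtain ⟨c, cb, hc⟩ : ∃ c, c ≠ b ∧ Γ.IsNClique 4 (insert c (σ.erase b)) := by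
    by_cases e : p = b
    exacts [⟨q, e ▸ n.symm, (k q).2 (.inr rfl)⟩, ⟨p, e, (k p).2 (.inl rfl)⟩]
  have ad : ∀ s ∈ σ, s ≠ b → Γ.Adj c s := fun s hs e => by
    have m : s ∈ σ.erase b := Finset.mem_erase.2 ⟨e, hs⟩
    refine hc.1 (by simp) (by simp [e, hs]) fun e' => ?_
    have := hc.2
    rw [Finset.insert_eq_of_mem (e' ▸ m), h3.2] at this
    omega
  refine ⟨c, cb, fun j => ?_, ad⟩
  have h5 := hσ.insert (a := c) fun s hs => by
    by_cases e : s = b
    exacts [e ▸ j, ad s hs e]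
  have := H.le4 _ h5.1
  rw [h5.2] at this
  omega

/-- no transvections -/
theorem Hy.star_star (H : Hy Γ) (a : S) : star Γ (star Γ {a}) ⊆ {a} := fun b hb => by
  by_contra e
  have ab : Γ.Adj b a := hb a (fun _ h n => (n h.symm).elim) e
  obtain ⟨σ, hσ, sub⟩ := H.ext {b, a} (by simpa using fun _ => ab)
  obtain ⟨c, cb, n, k⟩ := H.apex hσ (sub (Finset.mem_insert_self b _))
  exact n (hb c (fun _ h _ => h ▸ k a (sub (by simp)) ab.ne') cb.symm).symm

theorem Hy.mi_gen (H : Hy Γ) (a : S) : Mi (gen Γ a) := by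
  refine ⟨gen_mul_self a, gen_ne_one a, fun y hy => ?_⟩
  have h : y ∈ WT Γ (↑({a} : Finset S) : Set S) := WT_mono (by rw [Finset.coe_singleton]; exact H.star_star a)
    (cent (A := star Γ {a}) fun t ht => (hy _ (comm_star (gen_mem_WT ht) rfl)).symm)
  obtain ⟨σ, hσ, rfl⟩ := (mem_WT (by simp)).1 h
  rcases Finset.subset_singleton_iff.1 hσ with rfl | rfl <;> simp

/-- **step (1)** -/
theorem Hy.rf_map (H : Hy Γ) (β : W Γ ≃* W Γ) (a : S) :
    ∃ u s, β (gen Γ a) = u * gen Γ s * u⁻¹ := ((H.mi_gen a).map β).rf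

theorem Hy.rf_map' (H : Hy Γ) (β : W Γ ≃* W Γ) (h : Rx x) : Rx (β x) := by
  obtain ⟨u, s, rfl⟩ := h
  rw [map_mul, map_mul, map_inv]
  exact Rx.conj (H.rf_map β s) _

omit [DecidableEq S] in
/-- automorphisms of `W ⋊ F` preserve `W` if `F` has no involution -/
theorem res0 {F : Type} [Group F] {ρ : F →* MulAut (W Γ)} (hF : ∀ f : F, f * f = 1 → f = 1)
    (bh : W Γ ⋊[ρ] F ≃* W Γ ⋊[ρ] F) :
    ∃ β : W Γ ≃* W Γ, ∀ w, bh (SemidirectProduct.inl w) = SemidirectProduct.inl (β w) := by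
  have key : ∀ (b : W Γ ⋊[ρ] F ≃* W Γ ⋊[ρ] F) w, b (SemidirectProduct.inl w) =
      SemidirectProduct.inl (b (SemidirectProduct.inl w)).left := fun b w => by
    refine SemidirectProduct.ext rfl ?_
    induction w using ind_right with
    | one => simp
    | mul w s ih =>
      rw [map_mul, map_mul, SemidirectProduct.mul_right, ih, hF (b (.inl (gen Γ s))).right (by
        rw [← SemidirectProduct.mul_right, ← map_mul, ← map_mul, gen_mul_self, map_one, map_one,
          SemidirectProduct.one_right])]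
      simp
  refine ⟨{ toFun := fun w => (bh (.inl w)).left, invFun := fun w => (bh.symm (.inl w)).left
            left_inv := fun w => by simp only []; rw [← key]; simp
            right_inv := fun w => by simp only []; rw [← key]; simp
            map_mul' := fun v w => SemidirectProduct.inl_injective (φ := ρ) (by
              rw [← key, map_mul, map_mul, map_mul, ← key, ← key]) }, key bh⟩

end Crest.Agent.N233.Rr

end
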